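import Vale.Agent.P178.H847.QBase

/-!
# Quillen's K-groups `K_n(R) = π_{n+1}(B Q P(R), 0)`
-/

open CategoryTheory Simplicial Opposite

namespace Vale.Agent.P178.H847

universe u v

section Pi

variable {X : Type u} {Y : Type v} [TopologicalSpace X] [TopologicalSpace Y]

/-- the image of a generalized loop under a continuous map -/
def loopMap (N : Type) (g : C(X, Y)) {x : X} {y : Y} (h : g x = y) (p : GenLoop N X x) :
    GenLoop N Y y :=
  ⟨g.comp p.1, fun t ht => by
    have e : p t = x := p.2 t ht
    exact (congrArg g e).trans h⟩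

theorem loopMap_homotopic (N : Type) (g : C(X, Y)) {x : X} {y : Y} (h : g x = y)
    {p q : GenLoop N X x} (hpq : GenLoop.Homotopic p q) :
    GenLoop.Homotopic (loopMap N g h p) (loopMap N g h q) := by
  obtain ⟨H⟩ := hpq
  exact ⟨H.compContinuousMap g⟩

/-- the map on homotopy groups induced by a continuous map, as a map of sets -/
def piMap₀ (N : Type) (g : C(X, Y)) {x : X} {y : Y} (h : g x = y) :
    HomotopyGroup N X x → HomotopyGroup N Y y :=
  Quotient.map (loopMap N g h) fun _ _ hpq => loopMap_homotopic N g h hpq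

/-- the homomorphism on homotopy groups induced by a continuous map -/
def piMap (N : Type) [DecidableEq N] [Nonempty N] (g : C(X, Y)) {x : X} {y : Y} (h : g x = y) :
    HomotopyGroup N X x →* HomotopyGroup N Y y where
  toFun := piMap₀ N g h
  map_one' := by
    rw [HomotopyGroup.one_def, HomotopyGroup.one_def]
    refine congrArg (Quotient.mk _) ?_
    exact GenLoop.ext _ _ fun t => h
  map_mul' := by
    rintro ⟨p⟩ ⟨q⟩
    have e1 := HomotopyGroup.mul_spec (i := Classical.arbitrary N) (p := p) (q := q)
    have e2 := HomotopyGroup.mul_spec (i := Classical.arbitrary N) (p := loopMap N g h p)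
      (q := loopMap N g h q)
    refine (congrArg (piMap₀ N g h) e1).trans (Eq.trans ?_ e2.symm)
    refine congrArg (Quotient.mk _) ?_
    refine GenLoop.ext _ _ fun t => ?_
    change g (GenLoop.transAt (Classical.arbitrary N) q p t) =
      GenLoop.transAt (Classical.arbitrary N) (loopMap N g h q) (loopMap N g h p) t
    rw [GenLoop.transAt, GenLoop.transAt, GenLoop.coe_copy, GenLoop.coe_copy, apply_ite g]
    rfl

end Pi

/-- the point of the geometric realization given by a vertex -/
noncomputable def vtx (X : SSet.{u}) (x : X _⦋0⦌) : SSet.toTop.obj X :=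
  TopCat.toSSetObj₀Equiv ((sSetTopAdj.unit.app X).app (op ⦋0⦌) x)

theorem map_vtx {X Y : SSet.{u}} (g : X ⟶ Y) (x : X _⦋0⦌) :
    (SSet.toTop.map g).hom (vtx X x) = vtx Y (g.app (op ⦋0⦌) x) := by
  have h1 := congrArg (fun φ => φ.app (op ⦋0⦌) x) (sSetTopAdj.unit.naturality g)
  have h2 : (TopCat.toSSet.map (SSet.toTop.map g)).app (op ⦋0⦌)
      ((sSetTopAdj.unit.app X).app (op ⦋0⦌) x) =
      (sSetTopAdj.unit.app Y).app (op ⦋0⦌) (g.app (op ⦋0⦌) x) := h1.symm
  exact congrArg TopCat.toSSetObj₀Equiv h2

/-- the classifying space `B Q P(R)` of Quillen's category: the geometric realization of the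
nerve -/
noncomputable def BQ (R : Type u) [CommRing R] : TopCat.{u} := SSet.toTop.obj (nerve (QP R))

/-- the base point of `B Q P(R)`: the zero module -/
noncomputable def BQ.base (R : Type u) [CommRing R] : BQ R :=
  vtx (nerve (QP R)) (ComposableArrows.mk₀ (QP.zero R))

/-- Quillen's algebraic K-group `K_n(R) = π_{n+1}(B Q P(R), 0)` -/
def K (n : ℕ) (R : Type u) [CommRing R] : Type u := HomotopyGroup.Pi (n + 1) (BQ R) (BQ.base R)

noncomputable instance (n : ℕ) (R : Type u) [CommRing R] : Group (K n R) :=
  inferInstanceAs (Group (HomotopyGroup (Fin (n + 1)) (BQ R) (BQ.base R)))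

/-- the map `B Q P(R) → B Q P(S)` induced by `M ↦ S ⊗ M` -/
noncomputable def BQ.map {R S : Type u} [CommRing R] [CommRing S] (f : R →+* S) : BQ R ⟶ BQ S :=
  SSet.toTop.map (nerveMap (QP.baseChange f))

theorem BQ.map_base {R S : Type u} [CommRing R] [CommRing S] (f : R →+* S) :
    (BQ.map f).hom (BQ.base R) = BQ.base S := by
  refine (map_vtx _ _).trans ?_
  refine congrArg (vtx (nerve (QP S))) ?_
  rw [nerveMap_app_mk₀]
  exact congrArg ComposableArrows.mk₀ (QP.bcObj_zero f)

/-- The homomorphism `K_n(R) → K_n(S)` induced by a ring homomorphism `R → S`. -/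
noncomputable def K.map (n : ℕ) {R S : Type u} [CommRing R] [CommRing S] (f : R →+* S) :
    K n R →* K n S :=
  piMap (Fin (n + 1)) (BQ.map f).hom (BQ.map_base f)

end Vale.Agent.P178.H847
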